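import Crest.Agent.Helper62.S0466.Defs

/-!
S0466 squad (coordinator helper62), leaf EXT2b: `star_map_facts`.

If the star map `h ↦ (∑_{e ∈ star w} h e)_w` is injective on vectors supported on `F` and all
degrees are at least two, then all degrees are exactly two and the star map is onto.
Proof: the star map is a linear map `(F → ℝ) → (A → ℝ)`; injectivity gives `|F| ≤ |A|`; the degree
sum is `2 |F|` (double counting), so `2 |A| ≤ 2 |F| ≤ 2 |A|`; equal dimensions give surjectivity.
-/

set_option autoImplicit false

namespace Crest.Agent.Helper25.S0466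

open Crest.Agent.Helper62.S0466

variable {V E : Type} [DecidableEq V] [DecidableEq E]

/-- Extension by zero of a vector indexed by the active edges. -/
noncomputable def extF (F : Finset E) (g : F → ℝ) : E → ℝ :=
  fun e => if he : e ∈ F then g ⟨e, he⟩ else 0

theorem extF_apply_mem (F : Finset E) (g : F → ℝ) {e : E} (he : e ∈ F) :
    extF F g e = g ⟨e, he⟩ := by
  simp [extF, he]

theorem extF_apply_not_mem (F : Finset E) (g : F → ℝ) {e : E} (he : e ∉ F) :
    extF F g e = 0 := by
  simp [extF, he]

theorem extF_add (F : Finset E) (g₁ g₂ : F → ℝ) (e : E) :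
    extF F (g₁ + g₂) e = extF F g₁ e + extF F g₂ e := by
  by_cases he : e ∈ F <;> simp [extF, he]

theorem extF_smul (F : Finset E) (c : ℝ) (g : F → ℝ) (e : E) :
    extF F (c • g) e = c * extF F g e := by
  by_cases he : e ∈ F <;> simp [extF, he]

/-- The star map as a linear map on the subtypes. -/
noncomputable def starMap (ends : E → V × V) (A : Finset V) (F : Finset E) :
    (F → ℝ) →ₗ[ℝ] (A → ℝ) where
  toFun g := fun w => ∑ e ∈ star ends F w.1, extF F g e
  map_add' g₁ g₂ := by
    funext w
    simp only [Pi.add_apply, extF_add, Finset.sum_add_distrib]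
  map_smul' c g := by
    funext w
    simp only [Pi.smul_apply, smul_eq_mul, extF_smul, RingHom.id_apply, Finset.mul_sum]

theorem starMap_apply (ends : E → V × V) (A : Finset V) (F : Finset E) (g : F → ℝ) (w : A) :
    starMap ends A F g w = ∑ e ∈ star ends F w.1, extF F g e := rfl

/-- Double counting: the degrees sum to twice the number of edges. -/
theorem sum_card_star {ends : E → V × V} {A : Finset V} {F : Finset E} (hWF : WF ends A F) :
    ∑ w ∈ A, (star ends F w).card = 2 * F.card := by
  have h1 : ∑ w ∈ A, (star ends F w).card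
      = ∑ e ∈ F, (A.filter fun w => (ends e).1 = w ∨ (ends e).2 = w).card := by
    have := Finset.sum_card_bipartiteAbove_eq_sum_card_bipartiteBelow
      (s := A) (t := F) (fun (w : V) (e : E) => (ends e).1 = w ∨ (ends e).2 = w)
    simpa [Finset.bipartiteAbove, Finset.bipartiteBelow, Crest.Agent.Helper62.S0466.star] using this
  rw [h1]
  have h2 : ∀ e ∈ F, (A.filter fun w => (ends e).1 = w ∨ (ends e).2 = w).card = 2 := by
    intro e he
    obtain ⟨h1A, h2A, hne⟩ := hWF e he
    have : (A.filter fun w => (ends e).1 = w ∨ (ends e).2 = w) = {(ends e).1, (ends e).2} := by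
      ext w
      simp only [Finset.mem_filter, Finset.mem_insert, Finset.mem_singleton]
      constructor
      · rintro ⟨_, h | h⟩
        · exact Or.inl h.symm
        · exact Or.inr h.symm
      · rintro (h | h)
        · exact ⟨h ▸ h1A, Or.inl h.symm⟩
        · exact ⟨h ▸ h2A, Or.inr h.symm⟩
    rw [this, Finset.card_pair hne]
  rw [Finset.sum_congr rfl h2]
  simp [mul_comm]

theorem star_map_facts {ends : E → V × V} {A : Finset V} {F : Finset E} (hWF : WF ends A F)
    (hinj : ∀ h : E → ℝ, (∀ e, e ∉ F → h e = 0) →
      (∀ w ∈ A, ∑ e ∈ star ends F w, h e = 0) → h = 0)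
    (hdeg : ∀ w ∈ A, 2 ≤ (star ends F w).card) :
    (∀ w ∈ A, (star ends F w).card = 2) ∧
      ∀ y : V → ℝ, ∃ h : E → ℝ, (∀ e, e ∉ F → h e = 0) ∧
        ∀ w ∈ A, ∑ e ∈ star ends F w, h e = y w := by
  -- injectivity of the linear star map
  have hLinj : Function.Injective (starMap ends A F) := by
    rw [← LinearMap.ker_eq_bot, LinearMap.ker_eq_bot']
    intro g hg
    have hz : extF F g = 0 := by
      apply hinj
      · intro e he
        exact extF_apply_not_mem F g he
      · intro w hw
        have := congrFun hg ⟨w, hw⟩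
        simpa [starMap_apply] using this
    funext e
    have := congrFun hz e.1
    rw [extF_apply_mem F g e.2] at this
    simpa using this
  -- dimension count: |F| ≤ |A|
  have hcard : F.card ≤ A.card := by
    have := LinearMap.finrank_le_finrank_of_injective hLinj
    simpa [Module.finrank_fintype_fun_eq_card] using this
  -- degree count
  have hsum := sum_card_star hWF
  have hlow : 2 * A.card ≤ ∑ w ∈ A, (star ends F w).card := by
    calc 2 * A.card = ∑ _w ∈ A, 2 := by simp [mul_comm]
      _ ≤ ∑ w ∈ A, (star ends F w).card := Finset.sum_le_sum hdeg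
  have hFA : F.card = A.card := by omega
  have hdeg2 : ∀ w ∈ A, (star ends F w).card = 2 := by
    by_contra hcon
    push Not at hcon
    obtain ⟨w₀, hw₀, hne⟩ := hcon
    have hlt : ∑ _w ∈ A, 2 < ∑ w ∈ A, (star ends F w).card := by
      apply Finset.sum_lt_sum hdeg
      exact ⟨w₀, hw₀, lt_of_le_of_ne (hdeg w₀ hw₀) (Ne.symm hne)⟩
    have : ∑ _w ∈ A, 2 = 2 * A.card := by simp [mul_comm]
    omega
  refine ⟨hdeg2, ?_⟩
  -- surjectivity from equal dimensions
  have hfin : Module.finrank ℝ (F → ℝ) = Module.finrank ℝ (A → ℝ) := by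
    simp [Module.finrank_fintype_fun_eq_card, hFA]
  have hLsurj : Function.Surjective (starMap ends A F) :=
    (LinearMap.injective_iff_surjective_of_finrank_eq_finrank hfin).mp hLinj
  intro y
  obtain ⟨g, hg⟩ := hLsurj (fun w : A => y w.1)
  refine ⟨extF F g, fun e he => extF_apply_not_mem F g he, ?_⟩
  intro w hw
  have := congrFun hg ⟨w, hw⟩
  simpa [starMap_apply] using this

end Crest.Agent.Helper25.S0466
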